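import Mathlib

/-!
# The one-variable inequality behind the volume product of bodies with dilated sections

Spare copy (helper29) of the one-variable part of the P248 proof reports of helper20 and
helper61.  For a concave, non-increasing, non-negative profile `a` on `[0, h]` with `a 0 > 0`
and its dual profile `b τ = inf {(1 - t τ) / a t}` on `[0, 1 / h]`,
`(∫₀ʰ aⁿ) (∫₀^{1/h} bⁿ) ≥ 1 / (n + 1)`.
-/

namespace Vale.Agent.Lib.P248.H29

open MeasureTheory Set intervalIntegral Filter Topology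

theorem pow_antitoneOn {f : ℝ → ℝ} {s : Set ℝ} (ha : AntitoneOn f s)
    (h0 : ∀ t ∈ s, 0 ≤ f t) (k : ℕ) : AntitoneOn (fun t => f t ^ k) s := by
  intro x hx y hy hxy
  exact pow_le_pow_left₀ (h0 y hy) (ha hx hy hxy) k

theorem binom_lower (x y : ℝ) (hx : 0 ≤ x) (hy : 0 ≤ y) (m : ℕ) :
    y ^ (m + 1) + (m + 1) * x * y ^ m ≤ (x + y) ^ (m + 1) := by
  induction m with
  | zero => simp; linarith
  | succ k ih =>
    have h1 : 0 ≤ x + y := by linarith
    have h2 := mul_le_mul_of_nonneg_left ih h1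
    have h3 : 0 ≤ x ^ 2 * y ^ k := by positivity
    have h4 : (x + y) * (y ^ (k + 1) + (k + 1) * x * y ^ k)
        = y ^ (k + 1 + 1) + ((k + 1 : ℕ) + 1) * x * y ^ (k + 1) + (k + 1) * (x ^ 2 * y ^ k) := by
      push_cast
      ring
    have h5 : (x + y) * (x + y) ^ (k + 1) = (x + y) ^ (k + 1 + 1) := by ring
    have h6 : (0 : ℝ) ≤ (k + 1) * (x ^ 2 * y ^ k) := by positivity
    linarith

/-- The cone inequality at a fixed dilation factor `l`. -/
theorem cone_step {f : ℝ → ℝ} {H : ℝ} (hH : 0 < H) (hc : ConcaveOn ℝ (Icc 0 H) f)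
    (ha : AntitoneOn f (Icc 0 H)) (h0 : ∀ t ∈ Icc 0 H, 0 ≤ f t) (m : ℕ) {t0 r0 : ℝ}
    (ht0 : t0 ∈ Icc 0 H) (hr0 : 0 ≤ r0) (hr : r0 ≤ f t0) {l : ℝ} (hl0 : 0 < l) (hl1 : l < 1) :
    (1 - l) * t0 * (l * f 0) ^ (m + 1) + (l ^ (m + 2) * (∫ t in (0:ℝ)..H, f t ^ (m + 1))
      + (m + 1) * (1 - l) * r0 * l ^ (m + 1) * (∫ t in (0:ℝ)..H, f t ^ m))
      ≤ ∫ t in (0:ℝ)..H, f t ^ (m + 1) := by
  set e := 1 - l with he
  have he0 : 0 < e := by linarith
  have hp1 : 0 ≤ e * t0 := mul_nonneg he0.le ht0.1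
  have hlH : 0 ≤ l * H := mul_nonneg hl0.le hH.le
  have hp2 : e * t0 ≤ e * t0 + l * H := by linarith
  have hp3 : e * t0 + l * H ≤ H := by
    have : e * t0 ≤ e * H := mul_le_mul_of_nonneg_left ht0.2 he0.le
    have h2 : e * H + l * H = H := by rw [he]; ring
    linarith
  have h0H : (0 : ℝ) ∈ Icc 0 H := left_mem_Icc.2 hH.le
  have hint : ∀ k : ℕ, ∀ p q : ℝ, 0 ≤ p → p ≤ q → q ≤ H →
      IntervalIntegrable (fun t => f t ^ k) volume p q := by
    intro k p q h1 h2 h3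
    apply AntitoneOn.intervalIntegrable
    rw [uIcc_of_le h2]
    exact (pow_antitoneOn ha h0 k).mono (Icc_subset_Icc h1 h3)
  have hsplit : ∫ t in (0:ℝ)..H, f t ^ (m + 1)
      = (∫ t in (0:ℝ)..(e * t0), f t ^ (m + 1))
        + (∫ t in (e * t0)..(e * t0 + l * H), f t ^ (m + 1))
        + ∫ t in (e * t0 + l * H)..H, f t ^ (m + 1) := by
    rw [integral_add_adjacent_intervals (hint _ _ _ le_rfl hp1 (by linarith))
      (hint _ _ _ hp1 hp2 hp3),
      integral_add_adjacent_intervals (hint _ _ _ le_rfl (by linarith) hp3)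
      (hint _ _ _ (by linarith) hp3 le_rfl)]
  -- first piece
  have h1 : e * t0 * (l * f 0) ^ (m + 1) ≤ ∫ t in (0:ℝ)..(e * t0), f t ^ (m + 1) := by
    have hcst : ∫ _t in (0:ℝ)..(e * t0), (l * f 0) ^ (m + 1) = e * t0 * (l * f 0) ^ (m + 1) := by
      rw [intervalIntegral.integral_const]
      simp
    rw [← hcst]
    apply integral_mono_on hp1 intervalIntegrable_const (hint _ _ _ le_rfl hp1 (by linarith))
    intro x hx
    have hx' : x ∈ Icc 0 H := ⟨hx.1, by linarith [hx.2]⟩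
    have het : e * t0 ∈ Icc 0 H := ⟨hp1, by linarith⟩
    have hcc : l * f 0 + e * f t0 ≤ f (e * t0) := by
      have := hc.2 h0H ht0 hl0.le he0.le (by rw [he]; ring)
      simpa [smul_eq_mul] using this
    have hfx : l * f 0 ≤ f x := by
      have h3 := ha hx' het hx.2
      have h4 : 0 ≤ e * f t0 := mul_nonneg he0.le (h0 t0 ht0)
      linarith
    exact pow_le_pow_left₀ (mul_nonneg hl0.le (h0 0 h0H)) hfx _
  -- middle piece
  have h2 : l ^ (m + 2) * (∫ t in (0:ℝ)..H, f t ^ (m + 1))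
      + (m + 1) * e * r0 * l ^ (m + 1) * (∫ t in (0:ℝ)..H, f t ^ m)
      ≤ ∫ t in (e * t0)..(e * t0 + l * H), f t ^ (m + 1) := by
    have hsub : ∫ u in (0:ℝ)..H, f (e * t0 + l * u) ^ (m + 1)
        = l⁻¹ * ∫ t in (e * t0)..(e * t0 + l * H), f t ^ (m + 1) := by
      have := integral_comp_add_mul (a := 0) (b := H) (fun t => f t ^ (m + 1)) hl0.ne' (e * t0)
      simpa [smul_eq_mul] using this
    have hmem : ∀ u ∈ Icc (0:ℝ) H, e * t0 + l * u ∈ Icc 0 H := by
      intro u hu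
      constructor
      · have := mul_nonneg hl0.le hu.1
        linarith
      · have := mul_le_mul_of_nonneg_left hu.2 hl0.le
        linarith
    have hlow : (∫ u in (0:ℝ)..H, ((l * f u) ^ (m + 1) + (m + 1) * (e * r0) * (l * f u) ^ m))
        ≤ ∫ u in (0:ℝ)..H, f (e * t0 + l * u) ^ (m + 1) := by
      apply integral_mono_on hH.le
      · have i1 : IntervalIntegrable (fun u => (l * f u) ^ (m + 1)) volume 0 H := by
          have := (hint (m + 1) 0 H le_rfl hH.le le_rfl).const_mul (l ^ (m + 1))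
          refine this.congr ?_
          intro u _
          simp only
          ring
        have i2 : IntervalIntegrable (fun u => (m + 1) * (e * r0) * (l * f u) ^ m) volume 0 H := by
          have := (hint m 0 H le_rfl hH.le le_rfl).const_mul ((m + 1) * (e * r0) * l ^ m)
          refine this.congr ?_
          intro u _
          simp only
          ring
        exact i1.add i2
      · apply AntitoneOn.intervalIntegrable
        rw [uIcc_of_le hH.le]
        intro x hx y hy hxy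
        have hxy' : e * t0 + l * x ≤ e * t0 + l * y := by
          have := mul_le_mul_of_nonneg_left hxy hl0.le
          linarith
        exact pow_le_pow_left₀ (h0 _ (hmem y hy)) (ha (hmem x hx) (hmem y hy) hxy') _
      · intro u hu
        have hcc : e * f t0 + l * f u ≤ f (e * t0 + l * u) := by
          have := hc.2 ht0 hu he0.le hl0.le (by rw [he]; ring)
          simpa [smul_eq_mul] using this
        have hx : 0 ≤ e * r0 := mul_nonneg he0.le hr0
        have hy : 0 ≤ l * f u := mul_nonneg hl0.le (h0 u hu)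
        have hb := binom_lower (e * r0) (l * f u) hx hy m
        have hle : e * r0 + l * f u ≤ f (e * t0 + l * u) := by
          have := mul_le_mul_of_nonneg_left hr he0.le
          linarith
        have := pow_le_pow_left₀ (by linarith) hle (m + 1)
        linarith
    have hlow2 : (∫ u in (0:ℝ)..H, ((l * f u) ^ (m + 1) + (m + 1) * (e * r0) * (l * f u) ^ m))
        = l ^ (m + 1) * (∫ t in (0:ℝ)..H, f t ^ (m + 1))
          + (m + 1) * (e * r0) * l ^ m * (∫ t in (0:ℝ)..H, f t ^ m) := by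
      have e1 : (fun u => (l * f u) ^ (m + 1) + (m + 1) * (e * r0) * (l * f u) ^ m)
          = fun u => l ^ (m + 1) * f u ^ (m + 1) + ((m + 1) * (e * r0) * l ^ m) * f u ^ m := by
        funext u
        ring
      rw [e1, integral_add ((hint (m + 1) 0 H le_rfl hH.le le_rfl).const_mul _)
        ((hint m 0 H le_rfl hH.le le_rfl).const_mul _), intervalIntegral.integral_const_mul,
        intervalIntegral.integral_const_mul]
    have hfin : ∫ t in (e * t0)..(e * t0 + l * H), f t ^ (m + 1)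
        = l * ∫ u in (0:ℝ)..H, f (e * t0 + l * u) ^ (m + 1) := by
      rw [hsub, ← mul_assoc, mul_inv_cancel₀ hl0.ne', one_mul]
    rw [hfin]
    have := mul_le_mul_of_nonneg_left hlow hl0.le
    rw [hlow2] at this
    have e2 : l * (l ^ (m + 1) * (∫ t in (0:ℝ)..H, f t ^ (m + 1))
          + (m + 1) * (e * r0) * l ^ m * (∫ t in (0:ℝ)..H, f t ^ m))
        = l ^ (m + 2) * (∫ t in (0:ℝ)..H, f t ^ (m + 1))
          + (m + 1) * e * r0 * l ^ (m + 1) * (∫ t in (0:ℝ)..H, f t ^ m) := by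
      ring
    linarith
  -- last piece
  have h3 : 0 ≤ ∫ t in (e * t0 + l * H)..H, f t ^ (m + 1) := by
    apply integral_nonneg hp3
    intro u hu
    exact pow_nonneg (h0 u ⟨by linarith [hu.1], hu.2⟩) _
  linarith

/-- **Cone inequality.** -/
theorem cone_ineq {f : ℝ → ℝ} {H : ℝ} (hH : 0 < H) (hc : ConcaveOn ℝ (Icc 0 H) f)
    (ha : AntitoneOn f (Icc 0 H)) (h0 : ∀ t ∈ Icc 0 H, 0 ≤ f t) (m : ℕ) {t0 r0 : ℝ}
    (ht0 : t0 ∈ Icc 0 H) (hr0 : 0 ≤ r0) (hr : r0 ≤ f t0) :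
    t0 * f 0 ^ (m + 1) + (m + 1) * r0 * (∫ t in (0:ℝ)..H, f t ^ m)
      ≤ (m + 2) * ∫ t in (0:ℝ)..H, f t ^ (m + 1) := by
  set I' := ∫ t in (0:ℝ)..H, f t ^ (m + 1) with hI'
  set I := ∫ t in (0:ℝ)..H, f t ^ m with hI
  set B := t0 * f 0 ^ (m + 1) + (m + 1) * r0 * I with hB
  have hI'0 : 0 ≤ I' := by
    apply integral_nonneg hH.le
    intro u hu
    exact pow_nonneg (h0 u hu) _
  have key : ∀ l : ℝ, l ∈ Ioo (0:ℝ) 1 → l ^ (m + 1) * B ≤ (m + 2) * I' := by
    intro l hl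
    have hs := cone_step hH hc ha h0 m ht0 hr0 hr hl.1 hl.2
    rw [← hI', ← hI] at hs
    have hbern : 1 - l ^ (m + 2) ≤ (m + 2) * (1 - l) := by
      have := one_add_mul_le_pow (a := l - 1) (by linarith [hl.1]) (m + 2)
      have e1 : (1 : ℝ) + (l - 1) = l := by ring
      rw [e1] at this
      push_cast at this
      linarith
    have h1 : (1 - l) * (l ^ (m + 1) * B) ≤ (1 - l ^ (m + 2)) * I' := by
      have e2 : (1 - l) * (l ^ (m + 1) * B)
          = (1 - l) * t0 * (l * f 0) ^ (m + 1) + (m + 1) * (1 - l) * r0 * l ^ (m + 1) * I := by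
        rw [hB]
        ring
      rw [e2]
      linarith
    have h2 : (1 - l ^ (m + 2)) * I' ≤ (m + 2) * (1 - l) * I' :=
      mul_le_mul_of_nonneg_right hbern hI'0
    have h3 : (1 - l) * (l ^ (m + 1) * B) ≤ (1 - l) * ((m + 2) * I') := by
      have e3 : (1 - l) * ((m + 2) * I') = (m + 2) * (1 - l) * I' := by ring
      rw [e3]
      linarith
    exact le_of_mul_le_mul_left h3 (by linarith [hl.2])
  have htend : Tendsto (fun l : ℝ => l ^ (m + 1) * B) (𝓝[<] (1:ℝ)) (𝓝 B) := by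
    have hcont : Continuous fun l : ℝ => l ^ (m + 1) * B := by fun_prop
    have := hcont.tendsto 1
    simp only [one_pow, one_mul] at this
    exact this.mono_left nhdsWithin_le_nhds
  refine le_of_tendsto htend ?_
  filter_upwards [Ioo_mem_nhdsLT (show (0:ℝ) < 1 by norm_num)] with l hl
  exact key l hl

/-- The dual profile. -/
noncomputable def dual (a : ℝ → ℝ) (h : ℝ) (τ : ℝ) : ℝ :=
  sInf ((fun t => (1 - t * τ) / a t) '' {t | t ∈ Icc 0 h ∧ 0 < a t})

section dualfacts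

variable {a : ℝ → ℝ} {h : ℝ}

theorem dual_nonempty (hh : 0 < h) (ha0 : 0 < a 0) (τ : ℝ) :
    ((fun t => (1 - t * τ) / a t) '' {t | t ∈ Icc 0 h ∧ 0 < a t}).Nonempty :=
  ⟨_, ⟨0, ⟨left_mem_Icc.2 hh.le, ha0⟩, rfl⟩⟩

theorem dual_members_nonneg (hh : 0 < h) {τ : ℝ} (hτ : τ ∈ Icc 0 h⁻¹) :
    ∀ c ∈ ((fun t => (1 - t * τ) / a t) '' {t | t ∈ Icc 0 h ∧ 0 < a t}), 0 ≤ c := by
  rintro c ⟨t, ⟨ht, hat⟩, rfl⟩
  have h1 : t * τ ≤ h * h⁻¹ := mul_le_mul ht.2 hτ.2 hτ.1 hh.le
  rw [mul_inv_cancel₀ hh.ne'] at h1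
  exact div_nonneg (by linarith) hat.le

theorem le_dual_iff (hh : 0 < h) (ha0 : 0 < a 0) {τ : ℝ} (hτ : τ ∈ Icc 0 h⁻¹) (ρ : ℝ) :
    ρ ≤ dual a h τ ↔ ∀ t ∈ Icc 0 h, 0 < a t → ρ * a t ≤ 1 - t * τ := by
  unfold dual
  rw [le_csInf_iff ⟨0, fun c hc => dual_members_nonneg hh hτ c hc⟩ (dual_nonempty hh ha0 τ)]
  constructor
  · intro hρ t ht hat
    have := hρ _ ⟨t, ⟨ht, hat⟩, rfl⟩
    rwa [le_div_iff₀ hat] at this
  · rintro hρ c ⟨t, ⟨ht, hat⟩, rfl⟩
    rw [le_div_iff₀ hat]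
    exact hρ t ht hat

theorem dual_nonneg (hh : 0 < h) (ha0 : 0 < a 0) {τ : ℝ} (hτ : τ ∈ Icc 0 h⁻¹) :
    0 ≤ dual a h τ :=
  le_csInf (dual_nonempty hh ha0 τ) (dual_members_nonneg hh hτ)

theorem dual_zero (hh : 0 < h) (ha : AntitoneOn a (Icc 0 h)) (ha0 : 0 < a 0) :
    dual a h 0 = (a 0)⁻¹ := by
  have h0h : (0 : ℝ) ∈ Icc 0 h := left_mem_Icc.2 hh.le
  have h0τ : (0 : ℝ) ∈ Icc 0 h⁻¹ := left_mem_Icc.2 (inv_pos.2 hh).le
  apply le_antisymm
  · have : dual a h 0 ≤ (1 - 0 * 0) / a 0 :=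
      csInf_le ⟨0, fun c hc => dual_members_nonneg hh h0τ c hc⟩ ⟨0, ⟨h0h, ha0⟩, rfl⟩
    simpa [one_div] using this
  · rw [le_dual_iff hh ha0 h0τ]
    intro t ht hat
    have h1 : a t ≤ a 0 := ha h0h ht ht.1
    rw [mul_zero, sub_zero, inv_mul_le_iff₀ ha0]
    linarith

theorem dual_antitoneOn (hh : 0 < h) (ha0 : 0 < a 0) :
    AntitoneOn (dual a h) (Icc 0 h⁻¹) := by
  intro x hx y hy hxy
  rw [le_dual_iff hh ha0 hx]
  intro t ht hat
  have h1 := (le_dual_iff hh ha0 hy (dual a h y)).1 le_rfl t ht hat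
  have h2 : t * x ≤ t * y := mul_le_mul_of_nonneg_left hxy ht.1
  linarith

theorem dual_concaveOn (hh : 0 < h) (ha0 : 0 < a 0) :
    ConcaveOn ℝ (Icc 0 h⁻¹) (dual a h) := by
  refine ⟨convex_Icc _ _, ?_⟩
  intro x hx y hy p q hp hq hpq
  have hmem : p • x + q • y ∈ Icc 0 h⁻¹ := (convex_Icc (0:ℝ) h⁻¹) hx hy hp hq hpq
  rw [le_dual_iff hh ha0 hmem]
  intro t ht hat
  have h1 := (le_dual_iff hh ha0 hx (dual a h x)).1 le_rfl t ht hat
  have h2 := (le_dual_iff hh ha0 hy (dual a h y)).1 le_rfl t ht hat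
  have h3 := mul_le_mul_of_nonneg_left h1 hp
  have h4 := mul_le_mul_of_nonneg_left h2 hq
  simp only [smul_eq_mul]
  have e1 : (p * dual a h x + q * dual a h y) * a t
      = p * (dual a h x * a t) + q * (dual a h y * a t) := by ring
  have e2 : 1 - t * (p * x + q * y) = p * (1 - t * x) + q * (1 - t * y) + (1 - (p + q)) := by
    ring
  rw [e1, e2, hpq]
  linarith

end dualfacts

/-- **The one-variable inequality.** -/
theorem one_var {a : ℝ → ℝ} {h : ℝ} (hh : 0 < h) (hc : ConcaveOn ℝ (Icc 0 h) a)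
    (ha : AntitoneOn a (Icc 0 h)) (h0 : ∀ t ∈ Icc 0 h, 0 ≤ a t) (ha0 : 0 < a 0) (n : ℕ) :
    1 ≤ (n + 1) * ((∫ t in (0:ℝ)..h, a t ^ n) * ∫ τ in (0:ℝ)..h⁻¹, dual a h τ ^ n) := by
  have hh' : 0 < h⁻¹ := inv_pos.2 hh
  have h0h : (0 : ℝ) ∈ Icc 0 h := left_mem_Icc.2 hh.le
  have hbc := dual_concaveOn (a := a) hh ha0
  have hba := dual_antitoneOn (a := a) hh ha0
  have hb0 : ∀ τ ∈ Icc 0 h⁻¹, 0 ≤ dual a h τ := fun τ hτ => dual_nonneg hh ha0 hτ
  have hab : a 0 * dual a h 0 = 1 := by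
    rw [dual_zero hh ha ha0, mul_inv_cancel₀ ha0.ne']
  induction n with
  | zero => simp [mul_inv_cancel₀ hh.ne']
  | succ m ih =>
    set u := ∫ t in (0:ℝ)..h, a t ^ m with hu
    set v := ∫ τ in (0:ℝ)..h⁻¹, dual a h τ ^ m with hv
    set I' := ∫ t in (0:ℝ)..h, a t ^ (m + 1) with hI'
    set J' := ∫ τ in (0:ℝ)..h⁻¹, dual a h τ ^ (m + 1) with hJ'
    have hu0 : 0 ≤ u := by
      apply integral_nonneg hh.le
      intro t ht
      exact pow_nonneg (h0 t ht) _
    have hv0 : 0 ≤ v := by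
      apply integral_nonneg hh'.le
      intro t ht
      exact pow_nonneg (hb0 t ht) _
    -- positivity of `I'`
    have hpos : h * a 0 ^ (m + 1) ≤ (m + 2) * I' := by
      have := cone_ineq hh hc ha h0 m (right_mem_Icc.2 hh.le) le_rfl (h0 h (right_mem_Icc.2 hh.le))
      rw [← hu, ← hI'] at this
      simpa using this
    have hI'pos : 0 < (m + 2) * I' := lt_of_lt_of_le (mul_pos hh (pow_pos ha0 _)) hpos
    set D := (m + 2) * I' with hD
    set τ1 := a 0 ^ (m + 1) / D with hτ1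
    set ρ1 := (m + 1) * u / D with hρ1
    have hτ1mem : τ1 ∈ Icc 0 h⁻¹ := by
      constructor
      · exact div_nonneg (pow_nonneg ha0.le _) hI'pos.le
      · rw [hτ1, div_le_iff₀ hI'pos, inv_mul_eq_div, le_div_iff₀ hh]
        linarith
    have hρ10 : 0 ≤ ρ1 := div_nonneg (mul_nonneg (by positivity) hu0) hI'pos.le
    have hρ1le : ρ1 ≤ dual a h τ1 := by
      rw [le_dual_iff hh ha0 hτ1mem]
      intro t ht _
      have := cone_ineq hh hc ha h0 m ht (h0 t ht) le_rfl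
      rw [← hu, ← hI', ← hD] at this
      have e1 : ρ1 * a t + t * τ1 = (t * a 0 ^ (m + 1) + (m + 1) * a t * u) / D := by
        rw [hρ1, hτ1]
        field_simp
        ring
      have h2 : ρ1 * a t + t * τ1 ≤ 1 := by
        rw [e1, div_le_one hI'pos]
        exact this
      linarith
    have hdualcone := cone_ineq hh' hbc hba hb0 m hτ1mem hρ10 hρ1le
    rw [← hv, ← hJ'] at hdualcone
    -- multiply by `D`
    have hmul : 1 + (m + 1) ^ 2 * (u * v) ≤ (m + 2) * J' * D := by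
      have h3 := mul_le_mul_of_nonneg_right hdualcone hI'pos.le
      have e2 : (τ1 * dual a h 0 ^ (m + 1) + (m + 1) * ρ1 * v) * D
          = (a 0 * dual a h 0) ^ (m + 1) + (m + 1) ^ 2 * (u * v) := by
        rw [hτ1, hρ1, mul_pow]
        field_simp
      rw [e2, hab, one_pow] at h3
      exact h3
    have hih : (m + 1 : ℝ) ≤ (m + 1) ^ 2 * (u * v) := by
      have := mul_le_mul_of_nonneg_left ih (show (0 : ℝ) ≤ m + 1 by positivity)
      nlinarith
    have hfin : (m + 2 : ℝ) ≤ (m + 2) * ((m + 2) * (I' * J')) := by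
      have e3 : (m + 2) * J' * D = (m + 2) * ((m + 2) * (I' * J')) := by
        rw [hD]
        ring
      linarith
    have hm2 : (0 : ℝ) < m + 2 := by positivity
    have hfin' : (m + 2 : ℝ) * 1 ≤ (m + 2) * ((m + 2) * (I' * J')) := by
      rw [mul_one]
      exact hfin
    have := le_of_mul_le_mul_left hfin' hm2
    push_cast
    have e4 : ((m : ℝ) + 1 + 1) = m + 2 := by ring
    rw [e4]
    exact this

end Vale.Agent.Lib.P248.H29
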